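import Vale.Agent.P358.Bounds

/-!
# The classical capacity of the generalized amplitude damping channel
-/

open Vale.Agent.P358

theorem Vale.Agent.Results.P358.Capacity.result (γ ν : ℝ) (hγ : γ ∈ Set.Icc (0 : ℝ) 1)
    (hν : ν ∈ Set.Icc (0 : ℝ) 1) :
    (∀ n : ℕ, IsGreatest (holevoValues (gad γ ν) n) (n * capValue γ ν)) ∧
    (∀ n : ℕ, holevo (gad γ ν) n = n * holevo (gad γ ν) 1) ∧
    capacity (gad γ ν) = holevo (gad γ ν) 1 ∧ capacity (gad γ ν) = capValue γ ν :=
  main_theorem hγ hν
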